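import Mathlib

/-!
Pointwise inequalities of the exact one-centre certificate in dimension six.
-/

open Real

namespace Vale.Agent.P219.Exact

/-- The weight of a pair of boundary points at distance `r` with incidence cosines `c` and `d`. -/
noncomputable def pairWeight (r c d : ℝ) : ℝ :=
  17 - 25 * (c + d) / r + (30 + 10 * (c ^ 2 + d ^ 2)) / r ^ 2

/-- The weight is nonnegative for all cosines of modulus at most one. -/
theorem pairWeight_nonneg {r c d : ℝ} (hr : 0 < r) (hc : |c| ≤ 1) (hd : |d| ≤ 1) :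
    0 ≤ pairWeight r c d := by
  have hc2 : c ^ 2 ≤ 1 := by nlinarith [abs_le.1 hc]
  have hd2 : d ^ 2 ≤ 1 := by nlinarith [abs_le.1 hd]
  have e : pairWeight r c d =
      (17 * r ^ 2 - 25 * (c + d) * r + (30 + 10 * (c ^ 2 + d ^ 2))) / r ^ 2 := by
    unfold pairWeight
    field_simp
  rw [e]
  refine div_nonneg ?_ (sq_nonneg r)
  nlinarith [sq_nonneg (34 * r - 25 * (c + d)), sq_nonneg (c - d)]

/-- The cubic part of the line inequality. -/
theorem cubic_part_nonneg {r c d : ℝ} (hr : 0 ≤ r) (hc : 0 ≤ c) (hd : 0 ≤ d) :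
    0 ≤ 30 * r ^ 3 - 360 * c * d * r + 240 * c * d * (c + d) := by
  set u := √(c * d) with hu
  have hu0 : 0 ≤ u := Real.sqrt_nonneg _
  have hu2 : u ^ 2 = c * d := Real.sq_sqrt (mul_nonneg hc hd)
  have hle : 2 * u ≤ c + d := by nlinarith [sq_nonneg (c - d)]
  have e : 30 * r ^ 3 - 360 * c * d * r + 240 * c * d * (c + d) =
      30 * ((r - 2 * u) ^ 2 * (r + 4 * u)) + 240 * (c * d * (c + d - 2 * u)) := by
    linear_combination (360 * r - 480 * u) * hu2
  rw [e]
  have := mul_nonneg (mul_nonneg hc hd) (sub_nonneg.2 hle)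
  positivity

/-- The quintic part of the line inequality. -/
theorem quintic_part_nonneg {r c d : ℝ} (hr : 0 ≤ r) (hc : 0 ≤ c) (hd : 0 ≤ d) :
    0 ≤ 17 * r ^ 5 - 25 * (c + d) * r ^ 4 + 10 * (c ^ 2 + d ^ 2) * r ^ 3 +
      48 * c * d * (c ^ 3 + d ^ 3) := by
  set s := c + d with hs
  have hs0 : 0 ≤ s := add_nonneg hc hd
  rcases hs0.eq_or_lt with h | h
  · have hc0 : c = 0 := by linarith
    have hd0 : d = 0 := by linarith
    rw [← h, hc0, hd0]
    simp only [mul_zero, zero_mul, sub_zero, add_zero, ne_eq, OfNat.ofNat_ne_zero,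
      not_false_eq_true, zero_pow]
    positivity
  have h0 : 0 ≤ 17 * r ^ 2 - 25 * s * r + 10 * s ^ 2 := by
    nlinarith [sq_nonneg (34 * r - 25 * s), sq_nonneg s]
  have h1 : 0 ≤ (r - s) ^ 2 * (17 * r ^ 3 + 9 * r ^ 2 * s + 6 * r * s ^ 2 + 3 * s ^ 3) := by
    positivity
  have key : s ^ 2 * (17 * r ^ 5 - 25 * s * r ^ 4 + 10 * (c ^ 2 + d ^ 2) * r ^ 3 +
      48 * c * d * (c ^ 3 + d ^ 3)) =
      (c - d) ^ 2 * (r ^ 3 * (17 * r ^ 2 - 25 * s * r + 10 * s ^ 2)) +
        4 * (c * d) * ((r - s) ^ 2 * (17 * r ^ 3 + 9 * r ^ 2 * s + 6 * r * s ^ 2 + 3 * s ^ 3)) +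
        36 * s ^ 3 * (c * d) * (c - d) ^ 2 := by
    rw [hs]; ring
  have : 0 ≤ (c - d) ^ 2 * (r ^ 3 * (17 * r ^ 2 - 25 * s * r + 10 * s ^ 2)) +
      4 * (c * d) * ((r - s) ^ 2 * (17 * r ^ 3 + 9 * r ^ 2 * s + 6 * r * s ^ 2 + 3 * s ^ 3)) +
        36 * s ^ 3 * (c * d) * (c - d) ^ 2 := by positivity
  rw [← key] at this
  exact nonneg_of_mul_nonneg_right this (by positivity)

/-- The line inequality, with equality on the diagonal `r = 2 c = 2 d`. -/
theorem line_inequality {r c d : ℝ} (hr : 0 < r) (hc : 0 ≤ c) (hd : 0 ≤ d) :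
    360 * c * d * r - 240 * c * d * (c + d) - 48 * c * d * (c ^ 3 + d ^ 3) ≤
      r ^ 5 * pairWeight r c d := by
  have e : r ^ 5 * pairWeight r c d =
      17 * r ^ 5 - 25 * (c + d) * r ^ 4 + (30 + 10 * (c ^ 2 + d ^ 2)) * r ^ 3 := by
    unfold pairWeight
    field_simp
  rw [e]
  nlinarith [cubic_part_nonneg hr.le hc hd, quintic_part_nonneg hr.le hc hd]

/-- The line inequality after division by the exit cosine. -/
theorem line_inequality_div {r c d : ℝ} (hr : 0 < r) (hc : 0 ≤ c) (hd : 0 < d) :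
    360 * c * r - 240 * c * (c + d) - 48 * c * (c ^ 3 + d ^ 3) ≤
      r ^ 5 / d * pairWeight r c d := by
  rw [div_mul_eq_mul_div, le_div_iff₀ hd]
  linear_combination line_inequality hr hc hd.le

/-- The equality case on the unit sphere. -/
theorem line_eq_diagonal {t : ℝ} (ht : 0 < t) :
    (2 * t) ^ 5 * pairWeight (2 * t) t t =
      360 * t * t * (2 * t) - 240 * t * t * (t + t) - 48 * t * t * (t ^ 3 + t ^ 3) := by
  unfold pairWeight
  field_simp
  ring

end Vale.Agent.P219.Exact
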